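import Vale.Agent.P100E.Cases
import Vale.Agent.P100E.Mean
import Vale.Agent.P100E.Sphere
import Vale.Agent.P100E.Pohozaev

/-!
# P100: subcritical nonexistence, with no boundedness, in the energy region

Every dimension n ≥ 3 and all real weights A, B > -2: no positive entire solution if
(n-3)(pq-1) < 2(max p q + 1); in particular n = 3 entirely, n = 4 for A, B ≤ 0, and every q
whenever (n-3) min p q ≤ 2.
-/

namespace Vale.Agent.Results.P100.EnergyRegion

open Vale.Agent.P100H Vale.Agent.P100E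

theorem result :
    ∀ (n : ℕ), 3 ≤ n → ∀ (p q A B : ℝ), 0 < p → 0 < q → -2 < A → -2 < B →
      (n : ℝ) - 2 < ((n : ℝ) + A) / (p + 1) + ((n : ℝ) + B) / (q + 1) →
      (((n : ℝ) - 3) * (p * q - 1) < 2 * (max p q + 1) ∨ n = 3 ∨ (n = 4 ∧ A ≤ 0 ∧ B ≤ 0) ∨
        ((n : ℝ) - 3) * min p q ≤ 2) →
      ¬ ∃ u v : EuclideanSpace ℝ (Fin n) → ℝ,
        Continuous u ∧ Continuous v ∧ ContDiffOn ℝ 2 u {0}ᶜ ∧ ContDiffOn ℝ 2 v {0}ᶜ ∧
        (∀ x, 0 < u x) ∧ (∀ x, 0 < v x) ∧
        (∀ x, x ≠ 0 → -Laplacian.laplacian u x = ‖x‖ ^ A * v x ^ p) ∧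
        (∀ x, x ≠ 0 → -Laplacian.laplacian v x = ‖x‖ ^ B * u x ^ q) := by
  rintro n hn p q A B hp hq hA hB hsub hreg ⟨u, v, huc, hvc, hu2, hv2, hu, hv, he, he'⟩
  have hr : ((n : ℝ) - 3) * (p * q - 1) < 2 * (max p q + 1) := by
    rcases hreg with h | h | ⟨h, hA0, hB0⟩ | h
    · exact h
    · exact region_of_three h hp
    · exact region_of_four h hp hq hA0 hB0 hsub
    · exact region_of_small hn hp hq h
  exact false_of_region hn (pohozaevBound hn) (sphereBound hn (meanBound hn)) hA hB hp hq hsub hr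
    (super_of_eqn huc hu2 hu hv he) (super_of_eqn hvc hv2 hv hu he') he he'

end Vale.Agent.Results.P100.EnergyRegion
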