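import Vale.Agent.P100H.Bootstrap

/-!
# P100: the weighted conjecture when both scaling exponents exceed (n-2)/2, and the scalar case

Moving spheres centred at the origin, with weights `r^θ` for `θ ≥ (n-2)/2`, and a pointwise
bootstrap at infinity.
-/

namespace Vale.Agent.Results.P100.HenonScalingRegion

open Vale.Agent.P100H

theorem system (n : ℕ) (hn : 3 ≤ n) (p q A B : ℝ) (hp : 0 < p) (hq : 0 < q) (hA : -2 < A)
    (hB : -2 < B)
    (h : p * q ≤ 1 ∨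
      (((n : ℝ) - 2) / 2 < (2 + A + p * (2 + B)) / (p * q - 1) ∧
        ((n : ℝ) - 2) / 2 < (2 + B + q * (2 + A)) / (p * q - 1)) ∨
      (n : ℝ) - 2 < (2 + A + p * (2 + B)) / (p * q - 1) ∨
      (n : ℝ) - 2 < (2 + B + q * (2 + A)) / (p * q - 1))
    (u v : EuclideanSpace ℝ (Fin n) → ℝ) (huc : Continuous u) (hvc : Continuous v)
    (hu2 : ContDiffOn ℝ 2 u {0}ᶜ) (hv2 : ContDiffOn ℝ 2 v {0}ᶜ) (hu : ∀ x, 0 < u x)
    (hv : ∀ x, 0 < v x)
    (he : ∀ x, x ≠ 0 → -Laplacian.laplacian u x = ‖x‖ ^ A * v x ^ p)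
    (he' : ∀ x, x ≠ 0 → -Laplacian.laplacian v x = ‖x‖ ^ B * u x ^ q) : False := by
  have su := super_of_eqn huc hu2 hu hv he
  have sv := super_of_eqn hvc hv2 hv hu he'
  have e2 : 2 * hf n = (n : ℝ) - 2 := by rw [hf]; ring
  rcases h with h | ⟨h1, h2⟩ | h | h
  · exact false_of_base hn hA hB hp hq (Or.inl h) su sv he he'
  · rcases le_or_gt (p * q) 1 with hpq | hpq
    · exact false_of_base hn hA hB hp hq (Or.inl hpq) su sv he he'
    · exact false_of_both hn hA hB hp hq hpq h1 h2 su sv he he'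
  · exact false_of_base hn hA hB hp hq (Or.inr (by rwa [e2])) su sv he he'
  · exact false_of_base hn hB hA hq hp (Or.inr (by rwa [e2, mul_comm q p])) sv su he' he

theorem result :
    (∀ (n : ℕ), 3 ≤ n → ∀ (p q A B : ℝ), 0 < p → 0 < q → -2 < A → -2 < B →
      (p * q ≤ 1 ∨
        (((n : ℝ) - 2) / 2 < (2 + A + p * (2 + B)) / (p * q - 1) ∧
          ((n : ℝ) - 2) / 2 < (2 + B + q * (2 + A)) / (p * q - 1)) ∨
        (n : ℝ) - 2 < (2 + A + p * (2 + B)) / (p * q - 1) ∨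
        (n : ℝ) - 2 < (2 + B + q * (2 + A)) / (p * q - 1)) →
      ¬ ∃ u v : EuclideanSpace ℝ (Fin n) → ℝ,
        Continuous u ∧ Continuous v ∧ ContDiffOn ℝ 2 u {0}ᶜ ∧ ContDiffOn ℝ 2 v {0}ᶜ ∧
        (∀ x, 0 < u x) ∧ (∀ x, 0 < v x) ∧
        (∀ x, x ≠ 0 → -Laplacian.laplacian u x = ‖x‖ ^ A * v x ^ p) ∧
        (∀ x, x ≠ 0 → -Laplacian.laplacian v x = ‖x‖ ^ B * u x ^ q)) ∧
    (∀ (n : ℕ), 3 ≤ n → ∀ (p A : ℝ), 0 < p → -2 < A →
      p < ((n : ℝ) + 2 + 2 * A) / ((n : ℝ) - 2) →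
      ¬ ∃ u : EuclideanSpace ℝ (Fin n) → ℝ,
        Continuous u ∧ ContDiffOn ℝ 2 u {0}ᶜ ∧ (∀ x, 0 < u x) ∧
        (∀ x, x ≠ 0 → -Laplacian.laplacian u x = ‖x‖ ^ A * u x ^ p)) := by
  refine ⟨?_, ?_⟩
  · rintro n hn p q A B hp hq hA hB h ⟨u, v, huc, hvc, hu2, hv2, hu, hv, he, he'⟩
    exact system n hn p q A B hp hq hA hB h u v huc hvc hu2 hv2 hu hv he he'
  · rintro n hn p A hp hA hsub ⟨u, huc, hu2, hu, he⟩
    have hn' : (3 : ℝ) ≤ n := by exact_mod_cast hn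
    refine system n hn p p A A hp hp hA hA ?_ u u huc huc hu2 hu2 hu hu he he
    rcases le_or_gt p 1 with h1 | h1
    · exact Or.inl (by nlinarith)
    · have hpp : 0 < p * p - 1 := by nlinarith
      rw [lt_div_iff₀ (by linarith)] at hsub
      have key : ((n : ℝ) - 2) / 2 < (2 + A + p * (2 + A)) / (p * p - 1) := by
        rw [lt_div_iff₀ hpp]
        have h4 : ((n : ℝ) - 2) / 2 * (p - 1) < 2 + A := by linarith
        calc ((n : ℝ) - 2) / 2 * (p * p - 1) = ((n : ℝ) - 2) / 2 * (p - 1) * (p + 1) := by ring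
          _ < (2 + A) * (p + 1) := mul_lt_mul_of_pos_right h4 (by linarith)
          _ = 2 + A + p * (2 + A) := by ring
      exact Or.inr (Or.inl ⟨key, key⟩)

end Vale.Agent.Results.P100.HenonScalingRegion
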