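import Vale.Agent.P100L.Line

/-!
# P100: the whole subcritical range on the lines p = 1 and q = 1

Moving spheres centred at the origin with exponent (n-4-A)/2 below (n-2)/2. The drift in the
equation of the gap is absorbed by an auxiliary function, linear in (u, v), which satisfies a
minimum principle; its behaviour at infinity comes from mean values and a weak Harnack inequality.
-/

namespace Vale.Agent.Results.P100.LinearLineFull

open Vale.Agent.P100H Vale.Agent.P100L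

theorem result :
    (∀ (n : ℕ), 3 ≤ n → ∀ (q A B : ℝ), 0 < q → -2 < A → -2 < B →
      (n : ℝ) - 2 < ((n : ℝ) + A) / (1 + 1) + ((n : ℝ) + B) / (q + 1) →
      ¬ ∃ u v : EuclideanSpace ℝ (Fin n) → ℝ,
        Continuous u ∧ Continuous v ∧ ContDiffOn ℝ 2 u {0}ᶜ ∧ ContDiffOn ℝ 2 v {0}ᶜ ∧
        (∀ x, 0 < u x) ∧ (∀ x, 0 < v x) ∧
        (∀ x, x ≠ 0 → -Laplacian.laplacian u x = ‖x‖ ^ A * v x ^ (1 : ℝ)) ∧
        (∀ x, x ≠ 0 → -Laplacian.laplacian v x = ‖x‖ ^ B * u x ^ q)) ∧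
    (∀ (n : ℕ), 3 ≤ n → ∀ (p A B : ℝ), 0 < p → -2 < A → -2 < B →
      (n : ℝ) - 2 < ((n : ℝ) + A) / (p + 1) + ((n : ℝ) + B) / (1 + 1) →
      ¬ ∃ u v : EuclideanSpace ℝ (Fin n) → ℝ,
        Continuous u ∧ Continuous v ∧ ContDiffOn ℝ 2 u {0}ᶜ ∧ ContDiffOn ℝ 2 v {0}ᶜ ∧
        (∀ x, 0 < u x) ∧ (∀ x, 0 < v x) ∧
        (∀ x, x ≠ 0 → -Laplacian.laplacian u x = ‖x‖ ^ A * v x ^ p) ∧
        (∀ x, x ≠ 0 → -Laplacian.laplacian v x = ‖x‖ ^ B * u x ^ (1 : ℝ))) := by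
  refine ⟨?_, ?_⟩
  · rintro n hn q A B hq hA hB hsub ⟨u, v, huc, hvc, hu2, hv2, hu, hv, he, he'⟩
    exact false_of_line hn hA hB hq (by norm_num at hsub ⊢; linarith)
      (super_of_eqn huc hu2 hu hv he) (super_of_eqn hvc hv2 hv hu he') he he'
  · rintro n hn p A B hp hA hB hsub ⟨u, v, huc, hvc, hu2, hv2, hu, hv, he, he'⟩
    exact false_of_line hn hB hA hp (by norm_num at hsub ⊢; linarith)
      (super_of_eqn hvc hv2 hv hu he') (super_of_eqn huc hu2 hu hv he) he' he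

end Vale.Agent.Results.P100.LinearLineFull
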