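import Mathlib

/-!
# P100: no positive solutions in the plane, or with a strong weight singularity

Minimum principle on annuli with radial barriers G(log r), G a quadratic plus a multiple of
exp((2 - n) log r).
-/

noncomputable section

namespace Vale.Agent.Results.P100.PlaneAndStrongWeights

open Filter Topology Set

variable {n : ℕ}

/-- Second derivative test at a local minimum. -/
theorem deriv_deriv_nonneg {g : ℝ → ℝ} {x : ℝ} (hm : IsLocalMin g x) (hc : ContinuousAt g x) :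
    0 ≤ deriv (deriv g) x := by
  by_contra h
  rw [not_le] at h
  have hmax := isLocalMax_of_deriv_deriv_neg h hm.deriv_eq_zero hc
  have heq : g =ᶠ[𝓝 x] fun _ => g x := by
    filter_upwards [hm, hmax] with y h1 h2
    exact le_antisymm h2 h1
  have h2 : deriv g =ᶠ[𝓝 x] fun _ => (0 : ℝ) := by
    filter_upwards [heq.eventuallyEq_nhds] with y hy
    rw [hy.deriv_eq, deriv_const]
  rw [h2.deriv_eq, deriv_const] at h
  exact lt_irrefl _ h

/-- The barrier profile, as a function of l = log r. -/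
def prof (m α β γ δ : ℝ) (l : ℝ) : ℝ := α * l ^ 2 + β * l + γ + δ * Real.exp (-m * l)

theorem hasDerivAt_prof (m α β γ δ l : ℝ) :
    HasDerivAt (prof m α β γ δ) (2 * α * l + β + δ * (-m * Real.exp (-m * l))) l := by
  have h := ((((hasDerivAt_pow 2 l).const_mul α).add ((hasDerivAt_id l).const_mul β)).add_const γ).add
    ((((hasDerivAt_id l).const_mul (-m)).exp).const_mul δ)
  refine h.congr_deriv ?_
  simp
  ring

theorem hasDerivAt_prof' (m α β δ l : ℝ) :
    HasDerivAt (fun l => 2 * α * l + β + δ * (-m * Real.exp (-m * l)))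
      (2 * α + δ * (m * m * Real.exp (-m * l))) l := by
  have h := (((hasDerivAt_id l).const_mul (2 * α)).add_const β).add
    (((((hasDerivAt_id l).const_mul (-m)).exp).const_mul (-m)).const_mul δ)
  refine h.congr_deriv ?_
  simp only [id_eq, mul_one]
  ring

/-- Second derivative of prof (log |x + t v|) at t = 0, for a unit vector v with ⟨x, v⟩ = a. -/
theorem line_deriv_deriv (m α β γ δ a Q : ℝ) (hQ : 0 < Q) :
    deriv (deriv fun t => prof m α β γ δ (Real.log (Q + 2 * t * a + t ^ 2) / 2)) 0 =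
      (2 * α + δ * (m * m * Real.exp (-m * (Real.log Q / 2)))) * (a / Q) ^ 2 +
      (2 * α * (Real.log Q / 2) + β + δ * (-m * Real.exp (-m * (Real.log Q / 2)))) *
        (1 / Q - 2 * a ^ 2 / Q ^ 2) := by
  have hq : ∀ t, HasDerivAt (fun t => Q + 2 * t * a + t ^ 2) (2 * a + 2 * t) t := fun t => by
    have h := ((((hasDerivAt_id t).const_mul 2).mul_const a).const_add Q).add (hasDerivAt_pow 2 t)
    refine h.congr_deriv ?_
    simp
  have hev : ∀ᶠ t in 𝓝 (0 : ℝ), Q + 2 * t * a + t ^ 2 ≠ 0 :=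
    (hq 0).continuousAt.eventually_ne (by simpa using hQ.ne')
  have h1 : deriv (fun t => prof m α β γ δ (Real.log (Q + 2 * t * a + t ^ 2) / 2)) =ᶠ[𝓝 0]
      fun t => (2 * α * (Real.log (Q + 2 * t * a + t ^ 2) / 2) + β +
        δ * (-m * Real.exp (-m * (Real.log (Q + 2 * t * a + t ^ 2) / 2)))) *
        ((a + t) / (Q + 2 * t * a + t ^ 2)) := by
    filter_upwards [hev] with t ht
    refine HasDerivAt.deriv ?_
    refine ((hasDerivAt_prof m α β γ δ _).comp t (((hq t).log ht).div_const 2)).congr_deriv ?_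
    field_simp
  rw [h1.deriv_eq]
  refine HasDerivAt.deriv ?_
  have hQ' : Q + 2 * (0 : ℝ) * a + (0 : ℝ) ^ 2 ≠ 0 := by simpa using hQ.ne'
  have hin := ((hq 0).log hQ').div_const 2
  have h := ((hasDerivAt_prof' m α β δ _).comp 0 hin).mul
    (((hasDerivAt_id (0 : ℝ)).const_add a).div (hq 0) hQ')
  refine h.congr_deriv ?_
  simp only [Function.comp, id_eq, Pi.div_apply, mul_zero, zero_mul, add_zero, ne_eq,
    OfNat.ofNat_ne_zero, not_false_eq_true, zero_pow]
  field_simp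

theorem sum_sq_coord (x : EuclideanSpace ℝ (Fin n)) : ∑ i, x i ^ 2 = ‖x‖ ^ 2 := by
  rw [EuclideanSpace.norm_sq_eq]
  simp [sq_abs]

theorem log_norm_line (x : EuclideanSpace ℝ (Fin n)) (i : Fin n) (t : ℝ) :
    Real.log ‖x + t • EuclideanSpace.single i (1 : ℝ)‖
      = Real.log (‖x‖ ^ 2 + 2 * t * x i + t ^ 2) / 2 := by
  have h : ‖x + t • EuclideanSpace.single i (1 : ℝ)‖ ^ 2 = ‖x‖ ^ 2 + 2 * t * x i + t ^ 2 := by
    rw [norm_add_sq_real, real_inner_smul_right, norm_smul, mul_pow, Real.norm_eq_abs, sq_abs]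
    simp [EuclideanSpace.inner_single_right]
    ring
  rw [← h, Real.log_pow]
  push_cast
  ring

/-- The Laplacian is the sum of the second derivatives along the coordinate lines. -/
theorem laplacian_eq_lines {f : EuclideanSpace ℝ (Fin n) → ℝ} {x : EuclideanSpace ℝ (Fin n)}
    (hf : ContDiffAt ℝ 2 f x) :
    Laplacian.laplacian f x =
      ∑ i, deriv (deriv fun t : ℝ => f (x + t • EuclideanSpace.single i (1 : ℝ))) 0 := by
  rw [InnerProductSpace.laplacian_eq_iteratedFDeriv_orthonormalBasis f (EuclideanSpace.basisFun (Fin n) ℝ)]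
  refine Finset.sum_congr rfl fun i _ => ?_
  rw [iteratedFDeriv_two_apply, EuclideanSpace.basisFun_apply]
  simp only [Matrix.cons_val_zero, Matrix.cons_val_one]
  set e := EuclideanSpace.single i (1 : ℝ)
  have hline : ∀ t : ℝ, HasDerivAt (fun t : ℝ => x + t • e) e t := fun t => by
    simpa using ((hasDerivAt_id t).smul_const e).const_add x
  have hev : ∀ᶠ t in 𝓝 (0 : ℝ), DifferentiableAt ℝ f (x + t • e) := by
    have h := (hf.eventually (by simp)).mono fun y hy => hy.differentiableAt (by simp)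
    exact (hline 0).continuousAt.eventually (by simpa using h)
  have h1 : deriv (fun t : ℝ => f (x + t • e)) =ᶠ[𝓝 0] fun t => fderiv ℝ f (x + t • e) e := by
    filter_upwards [hev] with t ht
    exact (ht.hasFDerivAt.comp_hasDerivAt t (hline t)).deriv
  rw [h1.deriv_eq]
  have hd : HasFDerivAt (fderiv ℝ f) (fderiv ℝ (fderiv ℝ f) x) (x + (0 : ℝ) • e) := by
    rw [zero_smul, add_zero]
    exact ((hf.fderiv_right (m := 1) (by norm_num)).differentiableAt (by simp)).hasFDerivAt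
  have h2 := (hd.comp_hasDerivAt 0 (hline 0))
  have h3 := ((ContinuousLinearMap.apply ℝ ℝ e).hasFDerivAt.comp_hasDerivAt 0 h2)
  exact h3.deriv.symm

/-- A strict supersolution above a radial barrier on the boundary spheres is above it inside. -/
theorem barrier_le {f : EuclideanSpace ℝ (Fin n) → ℝ}
    (hf : ContDiffOn ℝ 2 f {0}ᶜ) {a b : ℝ} (ha : 0 < a) (α β γ δ : ℝ)
    (hbd : ∀ x, ‖x‖ = a ∨ ‖x‖ = b → prof ((n : ℝ) - 2) α β γ δ (Real.log ‖x‖) ≤ f x)
    (hint : ∀ x, a < ‖x‖ → ‖x‖ < b → Laplacian.laplacian f x <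
      (2 * α + ((n : ℝ) - 2) * (2 * α * Real.log ‖x‖ + β)) / ‖x‖ ^ 2)
    (x : EuclideanSpace ℝ (Fin n)) (hxa : a ≤ ‖x‖) (hxb : ‖x‖ ≤ b) :
    prof ((n : ℝ) - 2) α β γ δ (Real.log ‖x‖) ≤ f x := by
  set m : ℝ := (n : ℝ) - 2 with hm
  let K : Set (EuclideanSpace ℝ (Fin n)) := Metric.closedBall 0 b ∩ {y | a ≤ ‖y‖}
  have hmem : ∀ y, y ∈ K ↔ ‖y‖ ≤ b ∧ a ≤ ‖y‖ := fun y => by simp [K]
  have hK : IsCompact K :=
    (isCompact_closedBall 0 b).inter_right (isClosed_le continuous_const continuous_norm)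
  have hne : ∀ y ∈ K, y ≠ 0 := fun y hy h => by
    have h' := ((hmem y).1 hy).2
    rw [h, norm_zero] at h'
    linarith
  let φ : EuclideanSpace ℝ (Fin n) → ℝ := fun y => f y - prof m α β γ δ (Real.log ‖y‖)
  have hφ : ∀ y, y ≠ 0 → ContinuousAt φ y := fun y hy =>
    ((hf.contDiffAt (isOpen_compl_singleton.mem_nhds hy)).continuousAt).sub
      ((hasDerivAt_prof m α β γ δ _).continuousAt.comp
        ((Real.continuousAt_log (norm_ne_zero_iff.2 hy)).comp continuous_norm.continuousAt))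
  obtain ⟨z, hz, hmin⟩ := hK.exists_isMinOn ⟨x, (hmem x).2 ⟨hxb, hxa⟩⟩
    (fun y hy => (hφ y (hne y hy)).continuousWithinAt)
  have hzx : φ z ≤ φ x := hmin ((hmem x).2 ⟨hxb, hxa⟩)
  suffices 0 ≤ φ z by
    have : 0 ≤ φ x := this.trans hzx
    simp only [φ] at this
    linarith
  obtain ⟨hzb, hza⟩ := (hmem z).1 hz
  rcases hza.eq_or_lt with h | hza'
  · have := hbd z (Or.inl h.symm)
    simp only [φ]; linarith
  rcases hzb.eq_or_lt with h | hzb'
  · have := hbd z (Or.inr h)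
    simp only [φ]; linarith
  exfalso
  have hz0 : 0 < ‖z‖ := ha.trans hza'
  have hzne : z ≠ 0 := norm_pos_iff.1 hz0
  have hfz := hf.contDiffAt (isOpen_compl_singleton.mem_nhds hzne)
  have hnhds : K ∈ 𝓝 z := by
    refine Filter.mem_of_superset (inter_mem (isOpen_lt continuous_norm continuous_const |>.mem_nhds hzb')
      ((isOpen_lt continuous_const continuous_norm).mem_nhds hza')) ?_
    exact fun y hy => (hmem y).2 ⟨le_of_lt hy.1, le_of_lt hy.2⟩
  have hloc : IsLocalMin φ z := hmin.isLocalMin hnhds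
  set L := Real.log ‖z‖ with hL
  set E0 := Real.exp (-m * L) with hE0
  have key : ∀ i, (2 * α + δ * (m * m * E0)) * (z i / ‖z‖ ^ 2) ^ 2 +
      (2 * α * L + β + δ * (-m * E0)) * (1 / ‖z‖ ^ 2 - 2 * z i ^ 2 / (‖z‖ ^ 2) ^ 2) ≤
      deriv (deriv fun t : ℝ => f (z + t • EuclideanSpace.single i (1 : ℝ))) 0 := by
    intro i
    set e := EuclideanSpace.single i (1 : ℝ)
    let ψ : ℝ → ℝ := fun t => φ (z + t • e)
    have hcl : ContinuousAt (fun t : ℝ => z + t • e) 0 := by fun_prop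
    have hψm : IsLocalMin ψ 0 := by
      have : IsLocalMin φ (z + (0 : ℝ) • e) := by simpa using hloc
      exact IsLocalMin.comp_continuous (g := fun t : ℝ => z + t • e) this hcl
    have hψc : ContinuousAt ψ 0 :=
      ContinuousAt.comp (g := φ) (by simpa using hφ z hzne) hcl
    have h0 := deriv_deriv_nonneg hψm hψc
    let F : ℝ → ℝ := fun t => f (z + t • e)
    let W : ℝ → ℝ := fun t => prof m α β γ δ (Real.log (‖z‖ ^ 2 + 2 * t * z i + t ^ 2) / 2)
    have hψ : ψ = F - W := funext fun t => by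
      simp only [ψ, φ, Pi.sub_apply, F, W, e, log_norm_line]
    have hF : ContDiffAt ℝ 2 F 0 :=
      ContDiffAt.comp (g := f) (0 : ℝ) (by simpa using hfz) (by fun_prop)
    have hW : ContDiffAt ℝ 2 W 0 := by
      have hne2 : ‖z‖ ^ 2 + 2 * (0 : ℝ) * z i + (0 : ℝ) ^ 2 ≠ 0 := by
        have := pow_pos hz0 2
        simpa using this.ne'
      have hl : ContDiffAt ℝ 2 (fun t : ℝ => Real.log (‖z‖ ^ 2 + 2 * t * z i + t ^ 2) / 2) 0 :=
        have hp : ContDiffAt ℝ 2 (fun t : ℝ => ‖z‖ ^ 2 + 2 * t * z i + t ^ 2) 0 := by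
          generalize ‖z‖ ^ 2 = Q
          generalize z i = r
          fun_prop
        (hp.log hne2).div_const 2
      simp only [W, prof]
      exact (((contDiffAt_const.mul (hl.pow 2)).add (contDiffAt_const.mul hl)).add contDiffAt_const).add
        (contDiffAt_const.mul (contDiffAt_const.mul hl).exp)
    have hsub : deriv (deriv ψ) 0 = deriv (deriv F) 0 - deriv (deriv W) 0 := by
      have h := iteratedDeriv_sub (n := 2) hF hW
      simp only [iteratedDeriv_succ, iteratedDeriv_zero] at h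
      rw [hψ]
      exact h
    have hW2 := line_deriv_deriv m α β γ δ (z i) (‖z‖ ^ 2) (pow_pos hz0 2)
    rw [show Real.log (‖z‖ ^ 2) / 2 = L by rw [hL, Real.log_pow]; push_cast; ring, ← hE0] at hW2
    change deriv (deriv W) 0 = _ at hW2
    rw [hsub, hW2] at h0
    linarith
  have hsum := Finset.sum_le_sum fun i (_ : i ∈ (Finset.univ : Finset (Fin n))) => key i
  rw [← laplacian_eq_lines hfz] at hsum
  simp only [div_pow, Finset.sum_add_distrib, ← Finset.mul_sum, Finset.sum_sub_distrib,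
    ← Finset.sum_div, sum_sq_coord, Finset.sum_const, Finset.card_univ, Fintype.card_fin,
    nsmul_eq_mul] at hsum
  have h2 := hint z hza' hzb'
  have hnz : (n : ℝ) = m + 2 := by rw [hm]; ring
  rw [hnz] at hsum
  have hne3 : ‖z‖ ≠ 0 := hz0.ne'
  have : (2 * α + δ * (m * m * E0)) * (‖z‖ ^ 2 / (‖z‖ ^ 2) ^ 2) +
      (2 * α * L + β + δ * (-m * E0)) * ((m + 2) * 1 / ‖z‖ ^ 2 - 2 * ‖z‖ ^ 2 / (‖z‖ ^ 2) ^ 2) =
      (2 * α + m * (2 * α * L + β)) / ‖z‖ ^ 2 := by
    field_simp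
    ring
  linarith

/-- Powers r^B are at least r^(-2) for r ≤ 1, B ≤ -2 and for r ≥ 1, B ≥ -2. -/
theorem inv_sq_le_rpow {r B : ℝ} (hr : 0 < r) (h : (r ≤ 1 ∧ B ≤ -2) ∨ (1 ≤ r ∧ -2 ≤ B)) :
    1 / r ^ 2 ≤ r ^ B := by
  have he : 1 / r ^ 2 = r ^ (-2 : ℝ) := by
    rw [Real.rpow_neg hr.le, one_div]
    norm_num
  rw [he]
  rcases h with ⟨h1, h2⟩ | ⟨h1, h2⟩
  · exact Real.rpow_le_rpow_of_exponent_ge hr h1 h2
  · exact Real.rpow_le_rpow_of_exponent_le h1 h2

theorem exists_norm_eq (hn : 1 ≤ n) {r : ℝ} (hr : 0 ≤ r) :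
    ∃ x : EuclideanSpace ℝ (Fin n), ‖x‖ = r :=
  ⟨EuclideanSpace.single ⟨0, hn⟩ r, by simp [abs_of_nonneg hr]⟩

/-- No positive solution in the punctured plane. -/
theorem plane (p q A B : ℝ) (hq : 0 < q) (u v : EuclideanSpace ℝ (Fin 2) → ℝ)
    (hu2 : ContDiffOn ℝ 2 u {0}ᶜ) (hv2 : ContDiffOn ℝ 2 v {0}ᶜ)
    (hu : ∀ x, x ≠ 0 → 0 < u x) (hv : ∀ x, x ≠ 0 → 0 < v x)
    (hequ : ∀ x, x ≠ 0 → -Laplacian.laplacian u x = ‖x‖ ^ A * v x ^ p)
    (heqv : ∀ x, x ≠ 0 → -Laplacian.laplacian v x = ‖x‖ ^ B * u x ^ q) : False := by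
  have hne : ∀ x : EuclideanSpace ℝ (Fin 2), 0 < ‖x‖ → x ≠ 0 := fun x h => norm_pos_iff.1 h
  obtain ⟨e, he⟩ := exists_norm_eq (n := 2) (by norm_num) zero_le_one
  obtain ⟨z, hz, hzmin⟩ := (isCompact_sphere (0 : EuclideanSpace ℝ (Fin 2)) 1).exists_isMinOn
    ⟨e, by simpa using he⟩
    (fun y hy => ((hu2.continuousOn).continuousAt (isOpen_compl_singleton.mem_nhds
      (hne y (by rw [mem_sphere_zero_iff_norm.1 hy]; exact one_pos)))).continuousWithinAt)
  have hm : 0 < u z := hu z (hne z (by rw [mem_sphere_zero_iff_norm.1 hz]; exact one_pos))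
  set μ := u z
  -- u is at least μ / 2 outside the circle and inside the circle
  have hlow : ∀ x, x ≠ 0 → μ / 2 ≤ u x := by
    intro x hx
    have hr : 0 < ‖x‖ := norm_pos_iff.2 hx
    set l := Real.log ‖x‖ with hl
    have hint : ∀ (T : ℝ) (y : EuclideanSpace ℝ (Fin 2)), 0 < ‖y‖ → Laplacian.laplacian u y <
        (2 * (0 : ℝ) + (((2 : ℕ) : ℝ) - 2) * (2 * 0 * Real.log ‖y‖ + -μ / T)) / ‖y‖ ^ 2 := by
      intro T y hy
      norm_num
      have := hequ y (hne y hy)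
      have h2 : 0 < ‖y‖ ^ A * v y ^ p :=
        mul_pos (Real.rpow_pos_of_pos hy A) (Real.rpow_pos_of_pos (hv y (hne y hy)) p)
      linarith
    have hbd1 : ∀ (T : ℝ) (y : EuclideanSpace ℝ (Fin 2)), ‖y‖ = 1 →
        prof (((2 : ℕ) : ℝ) - 2) 0 (-μ / T) μ 0 (Real.log ‖y‖) ≤ u y := fun T y hy => by
      have h := hzmin (mem_sphere_zero_iff_norm.2 hy)
      simpa [prof, hy] using h
    have hbd2 : ∀ (T : ℝ), T ≠ 0 → ∀ (y : EuclideanSpace ℝ (Fin 2)), ‖y‖ = Real.exp T →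
        prof (((2 : ℕ) : ℝ) - 2) 0 (-μ / T) μ 0 (Real.log ‖y‖) ≤ u y := fun T hT y hy => by
      have h := (hu y (hne y (by rw [hy]; exact Real.exp_pos T))).le
      simp only [prof, hy, Real.log_exp, div_mul_cancel₀ _ hT]
      linarith
    rcases le_total 1 ‖x‖ with h1 | h1
    · have hl0 : 0 ≤ l := Real.log_nonneg h1
      set T := 2 * l + 1 with hT
      have hT0 : 0 < T := by rw [hT]; linarith
      have h := barrier_le hu2 one_pos 0 (-μ / T) μ 0
        (fun y hy => hy.elim (hbd1 T y) (hbd2 T hT0.ne' y))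
        (fun y hy _ => hint T y (one_pos.trans hy)) x h1
        (by rw [← Real.exp_log hr]; exact Real.exp_le_exp.2 (by linarith : l ≤ T))
      refine le_trans ?_ h
      simp only [prof, ← hl]
      have : l / T ≤ 1 / 2 := by rw [div_le_iff₀ hT0]; linarith
      have h3 : -μ / T * l = -μ * (l / T) := by ring
      rw [h3]
      nlinarith
    · have hl0 : l ≤ 0 := Real.log_nonpos hr.le h1
      set T := 2 * l - 1 with hT
      have hT0 : T < 0 := by rw [hT]; linarith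
      have h := barrier_le hu2 (Real.exp_pos T) 0 (-μ / T) μ 0
        (fun y hy => hy.elim (hbd2 T hT0.ne y) (hbd1 T y))
        (fun y hy _ => hint T y ((Real.exp_pos T).trans hy)) x
        (by rw [← Real.exp_log hr]; exact Real.exp_le_exp.2 (by linarith : T ≤ l)) h1
      refine le_trans ?_ h
      simp only [prof, ← hl]
      have : l / T ≤ 1 / 2 := by rw [div_le_iff_of_neg hT0]; linarith
      have h3 : -μ / T * l = -μ * (l / T) := by ring
      rw [h3]
      nlinarith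
  set c := (μ / 2) ^ q / 2 with hc
  have hq2 : 0 < (μ / 2) ^ q := Real.rpow_pos_of_pos (half_pos hm) q
  have hc0 : 0 < c := by rw [hc]; linarith
  -- v is at least c L (T - L) / 2 on the annulus on the side where r^B ≥ r^(-2)
  have hintv : ∀ (T : ℝ) (y : EuclideanSpace ℝ (Fin 2)), 0 < ‖y‖ →
      ((‖y‖ ≤ 1 ∧ B ≤ -2) ∨ (1 ≤ ‖y‖ ∧ -2 ≤ B)) → Laplacian.laplacian v y <
      (2 * (-c / 2) + (((2 : ℕ) : ℝ) - 2) * (2 * (-c / 2) * Real.log ‖y‖ + c * T / 2)) / ‖y‖ ^ 2 := by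
    intro T y hy hB
    have h1 := heqv y (hne y hy)
    have h2 := inv_sq_le_rpow hy hB
    have h3 : (μ / 2) ^ q ≤ u y ^ q :=
      Real.rpow_le_rpow (by linarith) (hlow y (hne y hy)) hq.le
    have h4 : 1 / ‖y‖ ^ 2 * (μ / 2) ^ q ≤ ‖y‖ ^ B * u y ^ q :=
      mul_le_mul h2 h3 hq2.le (Real.rpow_nonneg hy.le B)
    have h5 : 0 < (1 / ‖y‖ ^ 2) * c := mul_pos (by positivity) hc0
    have h6 : (1 / ‖y‖ ^ 2) * (μ / 2) ^ q = 2 * ((1 / ‖y‖ ^ 2) * c) := by rw [hc]; ring
    have h7 : (2 * (-c / 2) + (((2 : ℕ) : ℝ) - 2) * (2 * (-c / 2) * Real.log ‖y‖ + c * T / 2))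
        / ‖y‖ ^ 2 = -((1 / ‖y‖ ^ 2) * c) := by norm_num; ring
    rw [h7]
    linarith
  have hbdv : ∀ (T : ℝ) (y : EuclideanSpace ℝ (Fin 2)), (‖y‖ = 1 ∨ ‖y‖ = Real.exp T) →
      prof (((2 : ℕ) : ℝ) - 2) (-c / 2) (c * T / 2) 0 0 (Real.log ‖y‖) ≤ v y := by
    intro T y hy
    have h : 0 ≤ v y := (hv y (hne y (by
      rcases hy with h | h <;> rw [h]; exacts [one_pos, Real.exp_pos T]))).le
    rcases hy with h' | h' <;> simp only [prof, h', Real.log_one, Real.log_exp] <;> nlinarith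
  rcases le_total (-2 : ℝ) B with hB | hB
  · obtain ⟨x, hx⟩ := exists_norm_eq (n := 2) (by norm_num) (Real.exp_pos 1).le
    set T := 2 + 2 * v x / c with hT
    have hvx := hv x (hne x (by rw [hx]; exact Real.exp_pos 1))
    have hT1 : 1 ≤ T := by
      have : 0 ≤ 2 * v x / c := by positivity
      linarith
    have h := barrier_le hv2 one_pos (-c / 2) (c * T / 2) 0 0 (hbdv T)
      (fun y hy _ => hintv T y (one_pos.trans hy) (Or.inr ⟨hy.le, hB⟩)) x
      (by rw [hx]; exact Real.one_le_exp zero_le_one) (by rw [hx]; exact Real.exp_le_exp.2 hT1)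
    simp only [prof, hx, Real.log_exp] at h
    have h8 : c * T = 2 * c + 2 * v x := by rw [hT]; field_simp
    nlinarith
  · obtain ⟨x, hx⟩ := exists_norm_eq (n := 2) (by norm_num) (Real.exp_pos (-1)).le
    set T := -(2 + 2 * v x / c) with hT
    have hvx := hv x (hne x (by rw [hx]; exact Real.exp_pos (-1)))
    have hT1 : T ≤ -1 := by
      have : 0 ≤ 2 * v x / c := by positivity
      linarith
    have h := barrier_le hv2 (Real.exp_pos T) (-c / 2) (c * T / 2) 0 0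
      (fun y hy => hbdv T y hy.symm)
      (fun y hy hy1 => hintv T y ((Real.exp_pos T).trans hy) (Or.inl ⟨hy1.le, hB⟩)) x
      (by rw [hx]; exact Real.exp_le_exp.2 hT1) (by rw [hx]; exact Real.exp_le_one_iff.2 (by norm_num))
    simp only [prof, hx, Real.log_exp] at h
    have h8 : c * T = -(2 * c + 2 * v x) := by rw [hT]; field_simp
    nlinarith

/-- For n ≥ 3 and B ≤ -2 no pair is positive and continuous at the origin. -/
theorem strong_weight (hn : 3 ≤ n) (q B : ℝ) (hq : 0 < q) (hB : B ≤ -2)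
    (u v : EuclideanSpace ℝ (Fin n) → ℝ) (huc : Continuous u) (hvc : Continuous v)
    (hv2 : ContDiffOn ℝ 2 v {0}ᶜ) (hu : ∀ x, 0 < u x) (hv : ∀ x, 0 < v x)
    (heqv : ∀ x, x ≠ 0 → -Laplacian.laplacian v x = ‖x‖ ^ B * u x ^ q) : False := by
  set m : ℝ := (n : ℝ) - 2 with hmdef
  have hm1 : 1 ≤ m := by
    have : (3 : ℝ) ≤ n := by exact_mod_cast hn
    linarith
  have hK := isCompact_closedBall (0 : EuclideanSpace ℝ (Fin n)) 1
  have hKne : (Metric.closedBall (0 : EuclideanSpace ℝ (Fin n)) 1).Nonempty :=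
    ⟨0, by simp⟩
  obtain ⟨z, -, hzmin⟩ := hK.exists_isMinOn hKne huc.continuousOn
  obtain ⟨w, -, hwmax⟩ := hK.exists_isMaxOn hKne hvc.continuousOn
  set c := u z ^ q / 2 with hc
  have hz : 0 < u z ^ q := Real.rpow_pos_of_pos (hu z) q
  have hc0 : 0 < c := by rw [hc]; linarith
  set κ := c / m with hκ
  have hκ0 : 0 < κ := div_pos hc0 (by linarith)
  set l := (v w + 1) / κ with hl
  have hl0 : 0 < l := div_pos (by linarith [hv w]) hκ0
  obtain ⟨x, hx⟩ := exists_norm_eq (n := n) (by omega) (Real.exp_pos (-l)).le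
  have hlim : Tendsto (fun T : ℝ => T / (Real.exp (m * T) - 1)) atTop (𝓝 0) := by
    refine squeeze_zero' (g := fun T : ℝ => 2 * T⁻¹) ?_ ?_ (by simpa using tendsto_inv_atTop_zero.const_mul (2 : ℝ))
    · filter_upwards [eventually_gt_atTop (0 : ℝ)] with T hT
      refine div_nonneg hT.le ?_
      have := Real.add_one_le_exp (m * T)
      nlinarith
    · filter_upwards [eventually_gt_atTop (0 : ℝ)] with T hT
      have h1 := Real.quadratic_le_exp_of_nonneg (show 0 ≤ m * T by nlinarith)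
      have hmm : 1 * T ^ 2 ≤ (m * m) * T ^ 2 :=
        mul_le_mul_of_nonneg_right (by nlinarith) (by positivity)
      have h2 : T ^ 2 / 2 ≤ Real.exp (m * T) - 1 := by nlinarith
      refine (div_le_div_of_nonneg_left hT.le (by positivity) h2).trans_eq ?_
      field_simp
  obtain ⟨T, hT1, hT2⟩ := ((((hlim.const_mul (κ * Real.exp (m * l))).eventually
    (gt_mem_nhds (show κ * Real.exp (m * l) * 0 < 1 by norm_num)))).and
      (eventually_ge_atTop (l + 1))).exists
  have hexp : 0 < Real.exp (m * T) - 1 := by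
    have := Real.add_one_le_exp (m * T)
    nlinarith
  set δ := -(κ * T / (Real.exp (m * T) - 1)) with hδ
  have h := barrier_le hv2 (Real.exp_pos (-T)) 0 (-κ) (-δ) δ (a := Real.exp (-T)) (b := 1) ?_ ?_ x
    (by rw [hx]; exact Real.exp_le_exp.2 (by linarith))
    (by rw [hx]; exact Real.exp_le_one_iff.2 (by linarith))
  · have hwx : v x ≤ v w := hwmax (by
      simp [hx, Real.exp_le_one_iff, hl0.le])
    simp only [prof, hx, Real.log_exp, ← hmdef] at h
    rw [show -m * -l = m * l by ring] at h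
    have h3 : κ * l = v w + 1 := by rw [hl]; field_simp
    have h4 : -δ * Real.exp (m * l) < 1 := by
      rw [hδ, neg_neg]
      calc κ * T / (Real.exp (m * T) - 1) * Real.exp (m * l)
          = κ * Real.exp (m * l) * (T / (Real.exp (m * T) - 1)) := by ring
        _ < 1 := hT1
    have h5 : 0 ≤ -δ := by
      rw [hδ, neg_neg]
      exact div_nonneg (mul_nonneg hκ0.le (by linarith)) hexp.le
    nlinarith
  · intro y hy
    have := (hv y).le
    rcases hy with h' | h'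
    · simp only [prof, h', Real.log_exp, ← hmdef]
      rw [show -m * -T = m * T by ring]
      have : δ * (Real.exp (m * T) - 1) = -(κ * T) := by
        rw [hδ, neg_mul, div_mul_cancel₀ _ hexp.ne']
      nlinarith
    · simp only [prof, h', Real.log_one, mul_zero, Real.exp_zero]
      nlinarith
  · intro y hy hy1
    have hy0 : 0 < ‖y‖ := (Real.exp_pos _).trans hy
    have h1 := heqv y (norm_pos_iff.1 hy0)
    have h2 := inv_sq_le_rpow (B := B) hy0 (Or.inl ⟨hy1.le, hB⟩)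
    have h3 : u z ^ q ≤ u y ^ q :=
      Real.rpow_le_rpow (hu z).le (hzmin (by simpa using hy1.le)) hq.le
    have h4 : 1 / ‖y‖ ^ 2 * u z ^ q ≤ ‖y‖ ^ B * u y ^ q :=
      mul_le_mul h2 h3 hz.le (Real.rpow_nonneg hy0.le B)
    have h5 : 0 < (1 / ‖y‖ ^ 2) * c := mul_pos (by positivity) hc0
    have h6 : (1 / ‖y‖ ^ 2) * u z ^ q = 2 * ((1 / ‖y‖ ^ 2) * c) := by rw [hc]; ring
    have h7 : (2 * (0 : ℝ) + m * (2 * 0 * Real.log ‖y‖ + -κ)) / ‖y‖ ^ 2
        = -((1 / ‖y‖ ^ 2) * c) := by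
      have : m ≠ 0 := by linarith
      rw [hκ]; field_simp; ring
    rw [h7]
    linarith

theorem result :
    (∀ (p q A B : ℝ), 0 < p → 0 < q →
      ¬ ∃ u v : EuclideanSpace ℝ (Fin 2) → ℝ,
        ContDiffOn ℝ 2 u {0}ᶜ ∧ ContDiffOn ℝ 2 v {0}ᶜ ∧
        (∀ x, x ≠ 0 → 0 < u x) ∧ (∀ x, x ≠ 0 → 0 < v x) ∧
        (∀ x, x ≠ 0 → -Laplacian.laplacian u x = ‖x‖ ^ A * v x ^ p) ∧
        (∀ x, x ≠ 0 → -Laplacian.laplacian v x = ‖x‖ ^ B * u x ^ q)) ∧
    (∀ (n : ℕ), 3 ≤ n → ∀ (p q A B : ℝ), 0 < p → 0 < q → A ≤ -2 ∨ B ≤ -2 →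
      ¬ ∃ u v : EuclideanSpace ℝ (Fin n) → ℝ,
        Continuous u ∧ Continuous v ∧ ContDiffOn ℝ 2 u {0}ᶜ ∧ ContDiffOn ℝ 2 v {0}ᶜ ∧
        (∀ x, 0 < u x) ∧ (∀ x, 0 < v x) ∧
        (∀ x, x ≠ 0 → -Laplacian.laplacian u x = ‖x‖ ^ A * v x ^ p) ∧
        (∀ x, x ≠ 0 → -Laplacian.laplacian v x = ‖x‖ ^ B * u x ^ q)) := by
  refine ⟨?_, ?_⟩
  · rintro p q A B - hq ⟨u, v, hu2, hv2, hu, hv, h1, h2⟩
    exact plane p q A B hq u v hu2 hv2 hu hv h1 h2
  · rintro n hn p q A B hp hq hAB ⟨u, v, huc, hvc, hu2, hv2, hu, hv, h1, h2⟩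
    rcases hAB with hA | hB
    · exact strong_weight hn p A hp hA v u hvc huc hu2 hv hu h1
    · exact strong_weight hn q B hq hB u v huc hvc hv2 hu hv h2

end Vale.Agent.Results.P100.PlaneAndStrongWeights
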